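import Vale.Agent.P232.Endpoint.PsiAlt.Bound
import Vale.Agent.P232.Uniq.Low
import Vale.Agent.P232.Upper

/-!
# The isoperimetric profile of the cubic three-torus and all minimisers
-/

open MeasureTheory
open scoped ENNReal

namespace Vale.Agent.Results.P232.TorusProfile

open Vale.Agent.P232

/-- For every volume the profile is attained and equals that of balls, tubes and slabs, and every
minimiser is, up to a null set, one of these shapes or the complement of one. -/
theorem result : ∀ V : ℝ, 0 < V → V < 1 →
    profile V = ENNReal.ofReal (profileJ V) ∧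
      (∃ E, MeasurableSet E ∧ IsPeriodicSet E ∧ vol E = ENNReal.ofReal V ∧ per E = profile V) ∧
      ∀ E, MeasurableSet E → IsPeriodicSet E → vol E = ENNReal.ofReal V → per E = profile V →
        ∃ S, IsShape S ∧ (AEEq E S ∨ AEEq Eᶜ S) := by
  have hend : EndpointBound := endpointBound
  intro V h0 h1
  refine ⟨profile_eq_of_endpoint hend h0 h1, ?_, fun E hE hp hv hmin =>
    classification_of hend (lowShapes (cruxBound_of_endpoint hend)) h0 h1 hE hp hv hmin⟩
  obtain ⟨E, hE, hp, hv, hP⟩ := exists_set_profileJ h0 h1
  exact ⟨E, hE, hp, hv, le_antisymm (hP.trans_eq (profile_eq_of_endpoint hend h0 h1).symm)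
    (iInf₂_le_of_le E hE (iInf₂_le_of_le hp hv le_rfl))⟩

end Vale.Agent.Results.P232.TorusProfile
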